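import Mathlib
import Crest.Prelude.Def_Shuffle
import Crest.Agent.Helper13.Shuffle.Basic

/-!
helper3: route-independent bridge lemmas for the shuffle of `Def_Shuffle` (row 155, S0222).

* `law m t g` : the probability that `t` shuffles produce the permutation `g`;
* `iterPos_append`, `permOf_append` : `s + t` shuffles = `s` shuffles followed by `t` shuffles;
* `law_add` : the law of `s + t` shuffles is the convolution of the two laws;
* `tv_add_le_left/right`, `tv_antitone` : the distance from uniform does not increase;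
* `chi2`, `tv_le_sqrt_chi2`, `chi2_add_le` : the chi-square distance and its relation to `tvFromUniform`.
-/

set_option autoImplicit false

namespace Crest.Agent.Helper3.Shuffle

open Crest.ProbabilityR.Shuffle Crest.Agent.Helper13.Shuffle

/-! ### Splitting a run of `s + t` shuffles -/

theorem append_castSucc {α : Type*} (s t : ℕ) (a : Fin s → α) (b : Fin (t + 1) → α) :
    (fun i : Fin (s + t) => Fin.append a b i.castSucc) = Fin.append a (fun j => b j.castSucc) := by
  funext i
  refine Fin.addCases (fun i' => ?_) (fun j => ?_) i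
  · have h : (Fin.castAdd t i').castSucc = Fin.castAdd (t + 1) i' := rfl
    rw [h, Fin.append_left, Fin.append_left]
  · have h : (Fin.natAdd s j).castSucc = Fin.natAdd s j.castSucc := rfl
    rw [h, Fin.append_right, Fin.append_right]

theorem append_last {α : Type*} (s t : ℕ) (a : Fin s → α) (b : Fin (t + 1) → α) :
    Fin.append a b (Fin.last (s + t)) = b (Fin.last t) := by
  have h : Fin.last (s + t) = Fin.natAdd s (Fin.last t) := rfl
  rw [h, Fin.append_right]

theorem iterPos_append (m s : ℕ) :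
    ∀ (t : ℕ) (a : Fin s → Fin m → Bool) (b : Fin t → Fin m → Bool) (x : Fin (2 * m)),
      iterPos m (s + t) (Fin.append a b) x = iterPos m t b (iterPos m s a x)
  | 0, a, b, x => by
      have h : (Fin.append a b : Fin (s + 0) → Fin m → Bool) = a := by
        funext i
        exact Fin.append_left a b i
      rw [h]
      rfl
  | t + 1, a, b, x => by
      have h1 : iterPos m (s + (t + 1)) (Fin.append a b) x =
          stepPos m (Fin.append a b (Fin.last (s + t)))
            (iterPos m (s + t) (fun i : Fin (s + t) => Fin.append a b i.castSucc) x) := rfl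
      rw [h1, append_last, append_castSucc, iterPos_append m s t a (fun j => b j.castSucc) x]
      rfl

theorem permOf_append (m s t : ℕ) (a : Fin s → Fin m → Bool) (b : Fin t → Fin m → Bool) :
    permOf m (s + t) (Fin.append a b) = permOf m t b * permOf m s a := by
  apply Equiv.ext
  intro x
  rw [Equiv.Perm.mul_apply, coe_permOf, coe_permOf, coe_permOf, iterPos_append]

/-! ### The law of the permutation after `t` shuffles -/

/-- Average of `f (permOf m t cs)` over all bit tables `cs`. -/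
noncomputable def expect (m t : ℕ) (f : Equiv.Perm (Fin (2 * m)) → ℝ) : ℝ :=
  (∑ cs : Fin t → Fin m → Bool, f (permOf m t cs)) / (2 : ℝ) ^ (m * t)

/-- The probability that `t` shuffles produce the permutation `g`. -/
noncomputable def law (m t : ℕ) (g : Equiv.Perm (Fin (2 * m))) : ℝ :=
  (fiberCard m t g : ℝ) / (2 : ℝ) ^ (m * t)

theorem two_pow_pos (m t : ℕ) : (0 : ℝ) < (2 : ℝ) ^ (m * t) := by positivity

open Classical in
theorem law_eq_expect (m t : ℕ) (g : Equiv.Perm (Fin (2 * m))) :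
    law m t g = expect m t (fun k => if k = g then 1 else 0) := by
  unfold law expect fiberCard
  rw [Finset.natCast_card_filter]

theorem law_nonneg (m t : ℕ) (g : Equiv.Perm (Fin (2 * m))) : 0 ≤ law m t g := by
  unfold law
  exact div_nonneg (Nat.cast_nonneg _) (two_pow_pos m t).le

theorem sum_law (m t : ℕ) : ∑ g : Equiv.Perm (Fin (2 * m)), law m t g = 1 := by
  unfold law
  rw [← Finset.sum_div, ← Nat.cast_sum, sum_fiberCard]
  push_cast
  exact div_self (two_pow_pos m t).ne'

open Classical in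
theorem expect_eq_sum_law (m t : ℕ) (f : Equiv.Perm (Fin (2 * m)) → ℝ) :
    expect m t f = ∑ g : Equiv.Perm (Fin (2 * m)), law m t g * f g := by
  have h : ∀ g : Equiv.Perm (Fin (2 * m)), law m t g * f g =
      (∑ cs : Fin t → Fin m → Bool, if permOf m t cs = g then f g else 0) / (2 : ℝ) ^ (m * t) := by
    intro g
    rw [law_eq_expect]
    unfold expect
    rw [div_mul_eq_mul_div, Finset.sum_mul]
    congr 1
    apply Finset.sum_congr rfl
    intro cs _
    by_cases hc : permOf m t cs = g <;> simp [hc]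
  simp_rw [h]
  rw [← Finset.sum_div, Finset.sum_comm]
  unfold expect
  congr 1
  apply Finset.sum_congr rfl
  intro cs _
  rw [Finset.sum_ite_eq]
  simp

theorem expect_add (m s t : ℕ) (f : Equiv.Perm (Fin (2 * m)) → ℝ) :
    expect m (s + t) f = expect m s (fun h => expect m t (fun k => f (k * h))) := by
  unfold expect
  have h1 : (∑ cs : Fin (s + t) → Fin m → Bool, f (permOf m (s + t) cs)) =
      ∑ a : Fin s → Fin m → Bool, ∑ b : Fin t → Fin m → Bool, f (permOf m t b * permOf m s a) := by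
    rw [← Equiv.sum_comp (Fin.appendEquiv s t) (fun cs => f (permOf m (s + t) cs)),
      Fintype.sum_prod_type]
    apply Finset.sum_congr rfl
    intro a _
    apply Finset.sum_congr rfl
    intro b _
    have h2 : (Fin.appendEquiv s t) (a, b) = Fin.append a b := rfl
    rw [h2, permOf_append]
  rw [h1, ← Finset.sum_div, div_div]
  congr 1
  rw [mul_add, pow_add, mul_comm]

theorem law_add (m s t : ℕ) (g : Equiv.Perm (Fin (2 * m))) :
    law m (s + t) g = ∑ h : Equiv.Perm (Fin (2 * m)), law m s h * law m t (g * h⁻¹) := by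
  classical
  rw [law_eq_expect, expect_add, expect_eq_sum_law]
  apply Finset.sum_congr rfl
  intro h _
  congr 1
  rw [law_eq_expect]
  unfold expect
  congr 1
  apply Finset.sum_congr rfl
  intro cs _
  have : (permOf m t cs * h = g) ↔ (permOf m t cs = g * h⁻¹) := by
    constructor
    · intro e
      rw [← e, mul_inv_cancel_right]
    · intro e
      rw [e, inv_mul_cancel_right]
  simp only [this]

/-- The other form of the convolution: sum over the second factor. -/
theorem law_add' (m s t : ℕ) (g : Equiv.Perm (Fin (2 * m))) :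
    law m (s + t) g = ∑ k : Equiv.Perm (Fin (2 * m)), law m s (k⁻¹ * g) * law m t k := by
  rw [law_add]
  -- substitute `h = k⁻¹ * g`
  rw [← Equiv.sum_comp ((Equiv.inv (Equiv.Perm (Fin (2 * m)))).trans (Equiv.mulRight g))
    (fun h => law m s h * law m t (g * h⁻¹))]
  apply Finset.sum_congr rfl
  intro k _
  simp [mul_inv_rev]

/-! ### Mixing inequalities (no group structure needed) -/

theorem sum_abs_mix_le {ι κ : Type*} [Fintype ι] [Fintype κ] (w : κ → ℝ) (hw : ∀ h, 0 ≤ w h)
    (e : κ → ι ≃ ι) (φ : ι → ℝ) :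
    ∑ g, |∑ h, w h * φ (e h g)| ≤ (∑ h, w h) * ∑ k, |φ k| := by
  have h1 : ∀ g, |∑ h, w h * φ (e h g)| ≤ ∑ h, w h * |φ (e h g)| := by
    intro g
    refine (Finset.abs_sum_le_sum_abs _ _).trans (le_of_eq ?_)
    apply Finset.sum_congr rfl
    intro h _
    rw [abs_mul, abs_of_nonneg (hw h)]
  refine (Finset.sum_le_sum (fun g _ => h1 g)).trans (le_of_eq ?_)
  rw [Finset.sum_comm, Finset.sum_mul]
  apply Finset.sum_congr rfl
  intro h _
  rw [← Finset.mul_sum, Equiv.sum_comp (e h) (fun k => |φ k|)]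

theorem sum_sq_mix_le {ι κ : Type*} [Fintype ι] [Fintype κ] (w : κ → ℝ) (hw : ∀ h, 0 ≤ w h)
    (e : κ → ι ≃ ι) (φ : ι → ℝ) :
    ∑ g, (∑ h, w h * φ (e h g)) ^ 2 ≤ (∑ h, w h) ^ 2 * ∑ k, (φ k) ^ 2 := by
  have h1 : ∀ g, (∑ h, w h * φ (e h g)) ^ 2 ≤ (∑ h, w h) * ∑ h, w h * (φ (e h g)) ^ 2 := by
    intro g
    have hcs := Finset.sum_mul_sq_le_sq_mul_sq (Finset.univ : Finset κ)
      (fun h => Real.sqrt (w h)) (fun h => Real.sqrt (w h) * φ (e h g))
    have e1 : ∀ h, Real.sqrt (w h) * (Real.sqrt (w h) * φ (e h g)) = w h * φ (e h g) := by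
      intro h
      rw [← mul_assoc, Real.mul_self_sqrt (hw h)]
    have e2 : ∀ h, Real.sqrt (w h) ^ 2 = w h := fun h => Real.sq_sqrt (hw h)
    have e3 : ∀ h, (Real.sqrt (w h) * φ (e h g)) ^ 2 = w h * (φ (e h g)) ^ 2 := by
      intro h
      rw [mul_pow, e2]
    simp only [e1, e2, e3] at hcs
    exact hcs
  refine (Finset.sum_le_sum (fun g _ => h1 g)).trans (le_of_eq ?_)
  rw [← Finset.mul_sum, Finset.sum_comm, sq, mul_assoc]
  congr 1
  rw [Finset.sum_mul]
  apply Finset.sum_congr rfl
  intro h _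
  rw [← Finset.mul_sum, Equiv.sum_comp (e h) (fun k => (φ k) ^ 2)]

/-! ### Distance from uniform -/

/-- The number of permutations, as a real number. -/
noncomputable def N (m : ℕ) : ℝ := ((2 * m).factorial : ℝ)

theorem N_pos (m : ℕ) : 0 < N m := by
  unfold N
  exact_mod_cast Nat.factorial_pos _

theorem card_perm (m : ℕ) :
    ((Finset.univ : Finset (Equiv.Perm (Fin (2 * m)))).card : ℝ) = N m := by
  unfold N
  rw [Finset.card_univ, Fintype.card_perm, Fintype.card_fin]

theorem sum_const_inv (m : ℕ) : ∑ _g : Equiv.Perm (Fin (2 * m)), (1 / N m) = 1 := by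
  rw [Finset.sum_const, nsmul_eq_mul, card_perm]
  exact mul_one_div_cancel (N_pos m).ne'

/-- The deviation of the law from the uniform law. -/
noncomputable def dev (m t : ℕ) (g : Equiv.Perm (Fin (2 * m))) : ℝ := law m t g - 1 / N m

theorem sum_dev (m t : ℕ) : ∑ g : Equiv.Perm (Fin (2 * m)), dev m t g = 0 := by
  unfold dev
  rw [Finset.sum_sub_distrib, sum_law, sum_const_inv, sub_self]

theorem tv_eq (m t : ℕ) :
    tvFromUniform m t = (1 / 2) * ∑ g : Equiv.Perm (Fin (2 * m)), |dev m t g| := by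
  rw [tvFromUniform_def]
  congr 1
  apply Finset.sum_congr rfl
  intro g _
  rw [uniformProb_event]
  rfl

theorem tv_nonneg (m t : ℕ) : 0 ≤ tvFromUniform m t := by
  rw [tv_eq]
  exact mul_nonneg (by norm_num) (Finset.sum_nonneg (fun g _ => abs_nonneg _))

/-- `s + t` shuffles: deviation as a mixture of right translates of the deviation of the last `t`. -/
theorem dev_add (m s t : ℕ) (g : Equiv.Perm (Fin (2 * m))) :
    dev m (s + t) g = ∑ h : Equiv.Perm (Fin (2 * m)), law m s h * dev m t (g * h⁻¹) := by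
  unfold dev
  rw [law_add]
  simp_rw [mul_sub]
  rw [Finset.sum_sub_distrib, ← Finset.sum_mul, sum_law, one_mul]

/-- `s + t` shuffles: deviation as a mixture of left translates of the deviation of the first `s`. -/
theorem dev_add' (m s t : ℕ) (g : Equiv.Perm (Fin (2 * m))) :
    dev m (s + t) g = ∑ k : Equiv.Perm (Fin (2 * m)), law m t k * dev m s (k⁻¹ * g) := by
  unfold dev
  rw [law_add']
  simp_rw [mul_sub]
  rw [Finset.sum_sub_distrib, ← Finset.sum_mul, sum_law, one_mul]
  congr 1
  apply Finset.sum_congr rfl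
  intro k _
  rw [mul_comm]

theorem tv_add_le_right (m s t : ℕ) : tvFromUniform m (s + t) ≤ tvFromUniform m t := by
  rw [tv_eq, tv_eq]
  apply mul_le_mul_of_nonneg_left _ (by norm_num)
  have h := sum_abs_mix_le (law m s) (law_nonneg m s)
    (fun h : Equiv.Perm (Fin (2 * m)) => Equiv.mulRight h⁻¹) (dev m t)
  rw [sum_law, one_mul] at h
  refine le_trans (le_of_eq ?_) h
  apply Finset.sum_congr rfl
  intro g _
  rw [dev_add]
  rfl

theorem tv_add_le_left (m s t : ℕ) : tvFromUniform m (s + t) ≤ tvFromUniform m s := by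
  rw [tv_eq, tv_eq]
  apply mul_le_mul_of_nonneg_left _ (by norm_num)
  have h := sum_abs_mix_le (law m t) (law_nonneg m t)
    (fun k : Equiv.Perm (Fin (2 * m)) => Equiv.mulLeft k⁻¹) (dev m s)
  rw [sum_law, one_mul] at h
  refine le_trans (le_of_eq ?_) h
  apply Finset.sum_congr rfl
  intro g _
  rw [dev_add']
  rfl

/-- More shuffles never increase the distance from uniform. -/
theorem tv_antitone (m : ℕ) {s t : ℕ} (h : s ≤ t) : tvFromUniform m t ≤ tvFromUniform m s := by
  obtain ⟨r, rfl⟩ := Nat.exists_eq_add_of_le h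
  exact tv_add_le_left m s r

/-! ### Chi-square distance -/

/-- The chi-square distance of the law after `t` shuffles from the uniform law. -/
noncomputable def chi2 (m t : ℕ) : ℝ := N m * ∑ g : Equiv.Perm (Fin (2 * m)), (dev m t g) ^ 2

theorem chi2_nonneg (m t : ℕ) : 0 ≤ chi2 m t :=
  mul_nonneg (N_pos m).le (Finset.sum_nonneg (fun _ _ => sq_nonneg _))

theorem chi2_eq (m t : ℕ) :
    chi2 m t = N m * (∑ g : Equiv.Perm (Fin (2 * m)), (law m t g) ^ 2) - 1 := by
  unfold chi2 dev
  have h : ∀ g : Equiv.Perm (Fin (2 * m)), (law m t g - 1 / N m) ^ 2 =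
      (law m t g) ^ 2 - (2 / N m) * law m t g + (1 / N m) * (1 / N m) := by
    intro g
    ring
  simp_rw [h]
  rw [Finset.sum_add_distrib, Finset.sum_sub_distrib, ← Finset.mul_sum, sum_law,
    ← Finset.mul_sum, sum_const_inv]
  have hN := (N_pos m).ne'
  field_simp
  ring

theorem tv_le_sqrt_chi2 (m t : ℕ) : tvFromUniform m t ≤ (1 / 2) * Real.sqrt (chi2 m t) := by
  rw [tv_eq]
  apply mul_le_mul_of_nonneg_left _ (by norm_num)
  apply Real.le_sqrt_of_sq_le
  have hcs := Finset.sum_mul_sq_le_sq_mul_sq (Finset.univ : Finset (Equiv.Perm (Fin (2 * m))))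
    (fun g => |dev m t g|) (fun _ => (1 : ℝ))
  simp only [mul_one, sq_abs, one_pow, Finset.sum_const, nsmul_eq_mul, card_perm] at hcs
  unfold chi2
  exact hcs.trans (le_of_eq (mul_comm _ _))

theorem chi2_add_le_right (m s t : ℕ) : chi2 m (s + t) ≤ chi2 m t := by
  unfold chi2
  apply mul_le_mul_of_nonneg_left _ (N_pos m).le
  have h := sum_sq_mix_le (law m s) (law_nonneg m s)
    (fun h : Equiv.Perm (Fin (2 * m)) => Equiv.mulRight h⁻¹) (dev m t)
  rw [sum_law, one_pow, one_mul] at h
  refine le_trans (le_of_eq ?_) h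
  apply Finset.sum_congr rfl
  intro g _
  rw [dev_add]
  rfl

theorem chi2_add_le_left (m s t : ℕ) : chi2 m (s + t) ≤ chi2 m s := by
  unfold chi2
  apply mul_le_mul_of_nonneg_left _ (N_pos m).le
  have h := sum_sq_mix_le (law m t) (law_nonneg m t)
    (fun k : Equiv.Perm (Fin (2 * m)) => Equiv.mulLeft k⁻¹) (dev m s)
  rw [sum_law, one_pow, one_mul] at h
  refine le_trans (le_of_eq ?_) h
  apply Finset.sum_congr rfl
  intro g _
  rw [dev_add']
  rfl

theorem chi2_antitone (m : ℕ) {s t : ℕ} (h : s ≤ t) : chi2 m t ≤ chi2 m s := by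
  obtain ⟨r, rfl⟩ := Nat.exists_eq_add_of_le h
  exact chi2_add_le_left m s r

/-! ### Abstract `L²` contraction and its iteration -/

/-- The Markov operator of `t` further shuffles acting on (densities of) laws, as an average over
bit tables. -/
theorem sum_law_mul_eq_expect (m t : ℕ) (ψ : Equiv.Perm (Fin (2 * m)) → ℝ)
    (g : Equiv.Perm (Fin (2 * m))) :
    ∑ k : Equiv.Perm (Fin (2 * m)), law m t k * ψ (k⁻¹ * g) =
      expect m t (fun k => ψ (k⁻¹ * g)) :=
  (expect_eq_sum_law m t (fun k => ψ (k⁻¹ * g))).symm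

/-- If `t` further shuffles contract the squared `L²` norm of mean-zero functions by `lam`, then
they contract the chi-square distance by `lam`. -/
theorem chi2_add_le_of_left (m s t : ℕ) (lam : ℝ)
    (H : ∀ ψ : Equiv.Perm (Fin (2 * m)) → ℝ, ∑ g, ψ g = 0 →
      ∑ g, (∑ k, law m t k * ψ (k⁻¹ * g)) ^ 2 ≤ lam * ∑ g, (ψ g) ^ 2) :
    chi2 m (s + t) ≤ lam * chi2 m s := by
  unfold chi2
  have h := H (dev m s) (sum_dev m s)
  have e : ∑ g : Equiv.Perm (Fin (2 * m)), (dev m (s + t) g) ^ 2 =
      ∑ g, (∑ k, law m t k * dev m s (k⁻¹ * g)) ^ 2 := by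
    apply Finset.sum_congr rfl
    intro g _
    rw [dev_add']
  rw [e]
  calc N m * ∑ g, (∑ k, law m t k * dev m s (k⁻¹ * g)) ^ 2
      ≤ N m * (lam * ∑ g, (dev m s g) ^ 2) := mul_le_mul_of_nonneg_left h (N_pos m).le
    _ = lam * (N m * ∑ g, (dev m s g) ^ 2) := by ring

/-- The same for the first `s` shuffles (mixtures of right translates). -/
theorem chi2_add_le_of_right (m s t : ℕ) (lam : ℝ)
    (H : ∀ φ : Equiv.Perm (Fin (2 * m)) → ℝ, ∑ g, φ g = 0 →
      ∑ g, (∑ h, law m s h * φ (g * h⁻¹)) ^ 2 ≤ lam * ∑ g, (φ g) ^ 2) :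
    chi2 m (s + t) ≤ lam * chi2 m t := by
  unfold chi2
  have h := H (dev m t) (sum_dev m t)
  have e : ∑ g : Equiv.Perm (Fin (2 * m)), (dev m (s + t) g) ^ 2 =
      ∑ g, (∑ h, law m s h * dev m t (g * h⁻¹)) ^ 2 := by
    apply Finset.sum_congr rfl
    intro g _
    rw [dev_add]
  rw [e]
  calc N m * ∑ g, (∑ h, law m s h * dev m t (g * h⁻¹)) ^ 2
      ≤ N m * (lam * ∑ g, (dev m t g) ^ 2) := mul_le_mul_of_nonneg_left h (N_pos m).le
    _ = lam * (N m * ∑ g, (dev m t g) ^ 2) := by ring

/-- Iteration: `j` further blocks of `D` shuffles contract the chi-square distance by `lam ^ j`. -/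
theorem chi2_iterate (m D s : ℕ) (lam : ℝ) (hlam : 0 ≤ lam)
    (H : ∀ ψ : Equiv.Perm (Fin (2 * m)) → ℝ, ∑ g, ψ g = 0 →
      ∑ g, (∑ k, law m D k * ψ (k⁻¹ * g)) ^ 2 ≤ lam * ∑ g, (ψ g) ^ 2) :
    ∀ j : ℕ, chi2 m (s + j * D) ≤ lam ^ j * chi2 m s
  | 0 => by simp
  | j + 1 => by
      have e : s + (j + 1) * D = (s + j * D) + D := by ring
      rw [e]
      calc chi2 m (s + j * D + D) ≤ lam * chi2 m (s + j * D) :=
            chi2_add_le_of_left m (s + j * D) D lam H
        _ ≤ lam * (lam ^ j * chi2 m s) :=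
            mul_le_mul_of_nonneg_left (chi2_iterate m D s lam hlam H j) hlam
        _ = lam ^ (j + 1) * chi2 m s := by ring

/-! ### The Markov operator on functions of the arrangement -/

/-- The Markov operator of `t` shuffles: `(opL m t ψ) g = E ψ ((permOf m t cs)⁻¹ * g)`; the law after
`s + t` shuffles is `opL m t` applied to the law after `s` shuffles (`law_add'`, `dev_add'`). -/
noncomputable def opL (m t : ℕ) (ψ : Equiv.Perm (Fin (2 * m)) → ℝ)
    (g : Equiv.Perm (Fin (2 * m))) : ℝ :=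
  ∑ k : Equiv.Perm (Fin (2 * m)), law m t k * ψ (k⁻¹ * g)

theorem opL_eq_expect (m t : ℕ) (ψ : Equiv.Perm (Fin (2 * m)) → ℝ)
    (g : Equiv.Perm (Fin (2 * m))) :
    opL m t ψ g = expect m t (fun k => ψ (k⁻¹ * g)) :=
  sum_law_mul_eq_expect m t ψ g

theorem law_add_eq_opL (m s t : ℕ) : law m (s + t) = opL m t (law m s) := by
  funext g
  rw [law_add']
  unfold opL
  apply Finset.sum_congr rfl
  intro k _
  rw [mul_comm]

theorem dev_add_eq_opL (m s t : ℕ) : dev m (s + t) = opL m t (dev m s) := by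
  funext g
  rw [dev_add']
  rfl

theorem opL_add (m s t : ℕ) (ψ : Equiv.Perm (Fin (2 * m)) → ℝ) :
    opL m (s + t) ψ = opL m t (opL m s ψ) := by
  funext g
  have hR : ∀ k : Equiv.Perm (Fin (2 * m)), opL m s ψ (k⁻¹ * g) =
      expect m s (fun h => ψ (h⁻¹ * (k⁻¹ * g))) := fun k => opL_eq_expect m s ψ (k⁻¹ * g)
  rw [opL_eq_expect, opL_eq_expect, expect_add]
  simp_rw [hR]
  unfold expect
  simp_rw [Finset.sum_div, div_div]
  rw [Finset.sum_comm]
  apply Finset.sum_congr rfl
  intro b _
  apply Finset.sum_congr rfl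
  intro a _
  rw [mul_inv_rev, mul_assoc, mul_comm ((2 : ℝ) ^ (m * t))]

theorem sum_opL (m t : ℕ) (ψ : Equiv.Perm (Fin (2 * m)) → ℝ) :
    ∑ g, opL m t ψ g = ∑ g, ψ g := by
  unfold opL
  rw [Finset.sum_comm]
  have h : ∀ k : Equiv.Perm (Fin (2 * m)),
      ∑ g, law m t k * ψ (k⁻¹ * g) = law m t k * ∑ g, ψ g := by
    intro k
    rw [← Finset.mul_sum]
    exact congrArg _ (Equiv.sum_comp (Equiv.mulLeft k⁻¹) ψ)
  simp_rw [h]
  rw [← Finset.sum_mul, sum_law, one_mul]

theorem sum_sq_opL_le (m t : ℕ) (ψ : Equiv.Perm (Fin (2 * m)) → ℝ) :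
    ∑ g, (opL m t ψ g) ^ 2 ≤ ∑ g, (ψ g) ^ 2 := by
  have h := sum_sq_mix_le (law m t) (law_nonneg m t)
    (fun k : Equiv.Perm (Fin (2 * m)) => Equiv.mulLeft k⁻¹) ψ
  rw [sum_law, one_pow, one_mul] at h
  exact h

/-! ### End game for S0222 -/

open Filter in
/-- If the distance from uniform tends to `0` along `K` passes for one `K ≤ 1600`, then it does
along `1600` passes: the statement of S0222. -/
theorem tendsto_tv_1600_of_tv (K : ℕ) (hK : K ≤ 1600)
    (h : Tendsto (fun d : ℕ => tvFromUniform (2 ^ d) (K * (d + 1))) atTop (nhds 0)) :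
    Tendsto (fun d : ℕ => tvFromUniform (2 ^ d) (1600 * (d + 1))) atTop (nhds 0) := by
  refine tendsto_of_tendsto_of_tendsto_of_le_of_le tendsto_const_nhds h
    (fun d => tv_nonneg _ _) (fun d => ?_)
  exact tv_antitone (2 ^ d) (Nat.mul_le_mul_right (d + 1) hK)

open Filter in
/-- If the chi-square distance tends to `0` along `K` passes for one `K ≤ 1600`, then S0222 holds. -/
theorem tendsto_tv_1600_of_chi2 (K : ℕ) (hK : K ≤ 1600)
    (h : Tendsto (fun d : ℕ => chi2 (2 ^ d) (K * (d + 1))) atTop (nhds 0)) :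
    Tendsto (fun d : ℕ => tvFromUniform (2 ^ d) (1600 * (d + 1))) atTop (nhds 0) := by
  apply tendsto_tv_1600_of_tv K hK
  have h2 : Tendsto (fun d : ℕ => (1 / 2) * Real.sqrt (chi2 (2 ^ d) (K * (d + 1)))) atTop (nhds 0) := by
    have h3 : Tendsto (fun d : ℕ => Real.sqrt (chi2 (2 ^ d) (K * (d + 1)))) atTop (nhds 0) := by
      have h4 : Tendsto (fun d : ℕ => Real.sqrt (chi2 (2 ^ d) (K * (d + 1)))) atTop
          (nhds (Real.sqrt 0)) := (Real.continuous_sqrt.tendsto 0).comp h
      rw [Real.sqrt_zero] at h4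
      exact h4
    simpa using h3.const_mul (1 / 2 : ℝ)
  exact tendsto_of_tendsto_of_tendsto_of_le_of_le tendsto_const_nhds h2
    (fun d => tv_nonneg _ _) (fun d => tv_le_sqrt_chi2 _ _)

open Filter in
/-- Variant with an eventual upper bound. -/
theorem tendsto_tv_1600_of_chi2_le (K : ℕ) (hK : K ≤ 1600) (ε : ℕ → ℝ)
    (hε : Tendsto ε atTop (nhds 0))
    (hb : ∀ᶠ d in atTop, chi2 (2 ^ d) (K * (d + 1)) ≤ ε d) :
    Tendsto (fun d : ℕ => tvFromUniform (2 ^ d) (1600 * (d + 1))) atTop (nhds 0) := by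
  apply tendsto_tv_1600_of_chi2 K hK
  exact tendsto_of_tendsto_of_tendsto_of_le_of_le' tendsto_const_nhds hε
    (Eventually.of_forall (fun d => chi2_nonneg _ _)) hb

end Crest.Agent.Helper3.Shuffle
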