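import Mathlib
import Crest.Agent.Helper13.Shuffle.GapIface

/-!
helper3: structure of one pass of the shuffle of `Def_Shuffle` (row 155, S0222; work package S of
the conditional GAP pre-build, interface `Crest.Agent.Helper13.Gap.StructStmt`).

One pass of the deck of `4 * 2 ^ d` cards (`d + 2` shuffles) is: two independent passes
(`d + 1` shuffles each) of the decks of `2 * 2 ^ d` cards formed by the even and by the odd
positions, followed by one independent layer of column swaps.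

* `ins s e v` : the number `v` with the bit `e` inserted at bit position `s`;
* `sub d e cs` : the coin table of the half deck `e` read off the coin table `cs` of the big deck;
* `iterPos_struct` : during the first `d + 1` shuffles the parity bit `e` of the starting position
  is a spectator, sitting at bit position `t` after `t` shuffles, while the other bits perform the
  shuffle of the half deck driven by `sub d e cs`;
* `permOf_snoc_struct` : the pointwise form of the structure theorem;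
* `sub_bijective` : `cs ↦ (sub d 0 cs, sub d 1 cs)` is a bijection of coin tables;
* `expect_pass_struct`, `structStmt` : the structure theorem for expectations.
-/

set_option autoImplicit false

namespace Crest.Agent.Helper3.Shuffle

open Crest.ProbabilityR.Shuffle Crest.Agent.Helper13.Shuffle Crest.Agent.Helper13.Gap

/-! ### Inserting a bit -/

/-- The number `v` with the bit `e` inserted at bit position `s`. -/
def ins (s e v : ℕ) : ℕ := (v / 2 ^ s) * 2 ^ (s + 1) + e * 2 ^ s + v % 2 ^ s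

theorem ins_eq (s e v : ℕ) : ins s e v = 2 ^ s * (2 * (v / 2 ^ s) + e) + v % 2 ^ s := by
  unfold ins
  rw [pow_succ]
  ring

theorem ins_zero (e v : ℕ) : ins 0 e v = 2 * v + e := by
  rw [ins_eq]
  simp [Nat.mod_one]

theorem ins_succ (s e u b : ℕ) (hb : b < 2) :
    ins (s + 1) e (2 * u + b) = 2 * ins s e u + b := by
  have h1 : (2 * u + b) / 2 ^ (s + 1) = u / 2 ^ s := by
    rw [pow_succ, mul_comm (2 ^ s) 2, ← Nat.div_div_eq_div_mul]
    congr 1
    omega
  have h2 : (2 * u + b) % 2 ^ (s + 1) = 2 * (u % 2 ^ s) + b := by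
    rw [pow_succ, mul_comm (2 ^ s) 2, Nat.mod_mul]
    have e1 : (2 * u + b) % 2 = b := by omega
    have e2 : (2 * u + b) / 2 = u := by omega
    rw [e1, e2]
    ring
  rw [ins_eq, ins_eq, h1, h2, pow_succ]
  ring

theorem ins_lt (s e v Q : ℕ) (he : e < 2) (hv : v < 2 ^ s * Q) :
    ins s e v < 2 * (2 ^ s * Q) := by
  have hP : 0 < 2 ^ s := by positivity
  have hq : v / 2 ^ s < Q := Nat.div_lt_of_lt_mul hv
  have hr : v % 2 ^ s < 2 ^ s := Nat.mod_lt _ hP
  rw [ins_eq]
  have h1 : 2 * (v / 2 ^ s) + e + 1 ≤ 2 * Q := by omega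
  have h2 : 2 ^ s * (2 * (v / 2 ^ s) + e + 1) ≤ 2 ^ s * (2 * Q) := Nat.mul_le_mul_left _ h1
  have h3 : 2 ^ s * (2 * (v / 2 ^ s) + e + 1) = 2 ^ s * (2 * (v / 2 ^ s) + e) + 2 ^ s := by ring
  have h4 : 2 ^ s * (2 * Q) = 2 * (2 ^ s * Q) := by ring
  omega

theorem ins_add (s e v Q : ℕ) : ins s e (2 ^ s * Q + v) = 2 * (2 ^ s * Q) + ins s e v := by
  have hP : 0 < 2 ^ s := by positivity
  rw [ins_eq, ins_eq, Nat.mul_add_div hP, Nat.mul_add_mod]
  ring

theorem ins_top (d e v : ℕ) (hv : v < 2 * 2 ^ d) : ins (d + 1) e v = e * (2 * 2 ^ d) + v := by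
  have h : 2 ^ (d + 1) = 2 * 2 ^ d := by rw [pow_succ]; ring
  rw [ins_eq, h, Nat.div_eq_of_lt hv, Nat.mod_eq_of_lt hv]
  ring

theorem ins_surj (s X Q : ℕ) (hX : X < 2 * (2 ^ s * Q)) :
    ∃ e u, e < 2 ∧ u < 2 ^ s * Q ∧ ins s e u = X := by
  have hP : 0 < 2 ^ s := by positivity
  have h4 : X % 2 ^ s < 2 ^ s := Nat.mod_lt _ hP
  refine ⟨X / 2 ^ s % 2, 2 ^ s * (X / 2 ^ s / 2) + X % 2 ^ s, Nat.mod_lt _ (by norm_num), ?_, ?_⟩
  · have h1 : X / 2 ^ s < 2 * Q := by
      apply Nat.div_lt_of_lt_mul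
      calc X < 2 * (2 ^ s * Q) := hX
        _ = 2 ^ s * (2 * Q) := by ring
    have h2 : X / 2 ^ s / 2 + 1 ≤ Q := by omega
    have h3 : 2 ^ s * (X / 2 ^ s / 2 + 1) ≤ 2 ^ s * Q := Nat.mul_le_mul_left _ h2
    have h5 : 2 ^ s * (X / 2 ^ s / 2 + 1) = 2 ^ s * (X / 2 ^ s / 2) + 2 ^ s := by ring
    omega
  · rw [ins_eq, Nat.mul_add_div hP, Nat.mul_add_mod, Nat.div_eq_of_lt h4, Nat.mod_eq_of_lt h4,
      add_zero]
    have h6 : 2 * (X / 2 ^ s / 2) + X / 2 ^ s % 2 = X / 2 ^ s := by omega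
    rw [h6]
    exact Nat.div_add_mod X (2 ^ s)

/-! ### The coin tables of the two half decks -/

/-- The coin table of the half deck `e` (`e = 0`: even positions, `e = 1`: odd positions): row `i`
of the coin table `cs` of the big deck, read at the index obtained by inserting the bit `e` at bit
position `i`. -/
def sub (d e : ℕ) {t : ℕ} (cs : Fin t → Fin (2 * 2 ^ d) → Bool) : Fin t → Fin (2 ^ d) → Bool :=
  fun i u => cs i ⟨ins i.val e u.val % (2 * 2 ^ d), Nat.mod_lt _ (by positivity)⟩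

/-- One shuffle of the big deck, seen on the half deck `e`, when the bit `e` sits at position
`s ≤ d`. -/
theorem stepPos_ins (d s e : ℕ) (hs : s ≤ d) (he : e < 2) (c : Fin (2 * 2 ^ d) → Bool)
    (X : Fin (2 * (2 * 2 ^ d))) (v : Fin (2 * 2 ^ d)) (hX : X.val = ins s e v.val) :
    (stepPos (2 * 2 ^ d) c X).val =
      ins (s + 1) e (stepPos (2 ^ d)
        (fun u => c ⟨ins s e u.val % (2 * 2 ^ d), Nat.mod_lt _ (by positivity)⟩) v).val := by
  have hPQ : 2 ^ s * 2 ^ (d - s) = 2 ^ d := by rw [← pow_add, Nat.add_sub_of_le hs]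
  have hm' : 0 < 2 ^ d := by positivity
  have hv := v.isLt
  have hr : v.val % 2 ^ d < 2 ^ d := Nat.mod_lt _ hm'
  have F3 : ins s e (v.val % 2 ^ d) < 2 * 2 ^ d := by
    have := ins_lt s e (v.val % 2 ^ d) (2 ^ (d - s)) he (by rw [hPQ]; exact hr)
    rwa [hPQ] at this
  have F12 : X.val % (2 * 2 ^ d) = ins s e (v.val % 2 ^ d) ∧
      ((2 * 2 ^ d ≤ X.val) ↔ (2 ^ d ≤ v.val)) := by
    rcases Nat.lt_or_ge v.val (2 ^ d) with h | h
    · have e1 : v.val % 2 ^ d = v.val := Nat.mod_eq_of_lt h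
      rw [e1] at F3 ⊢
      rw [hX]
      refine ⟨Nat.mod_eq_of_lt F3, ?_⟩
      constructor <;> intro h' <;> omega
    · have e1 : v.val % 2 ^ d = v.val - 2 ^ d := by
        rw [Nat.mod_eq_sub_mod h, Nat.mod_eq_of_lt (by omega)]
      have e2 : ins s e v.val = 2 * 2 ^ d + ins s e (v.val - 2 ^ d) := by
        have := ins_add s e (v.val - 2 ^ d) (2 ^ (d - s))
        rw [hPQ] at this
        rw [← this]
        congr 1
        omega
      rw [e1] at F3 ⊢
      rw [hX, e2]
      refine ⟨?_, ?_⟩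
      · rw [Nat.add_mod_left, Nat.mod_eq_of_lt F3]
      · constructor <;> intro _ <;> omega
  obtain ⟨F1, F2⟩ := F12
  rw [stepPos_val, stepPos_val]
  have hc : c ⟨X.val % (2 * 2 ^ d), Nat.mod_lt _ (by have := X.isLt; omega)⟩ =
      c ⟨ins s e (v.val % 2 ^ d) % (2 * 2 ^ d), Nat.mod_lt _ (by positivity)⟩ := by
    congr 1
    apply Fin.ext
    simp only
    rw [F1, Nat.mod_eq_of_lt F3]
  have hdec : decide (2 * 2 ^ d ≤ X.val) = decide (2 ^ d ≤ v.val) := decide_eq_decide.mpr F2
  rw [hc, hdec, F1]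
  rw [ins_succ]
  split <;> omega

/-- During the first `d + 1` shuffles of the deck of `4 * 2 ^ d` cards, the parity bit of the
starting position is a spectator (it sits at bit position `t` after `t` shuffles) and the other
bits perform the shuffle of the half deck, driven by the coin table `sub d e cs`. -/
theorem iterPos_struct (d : ℕ) : ∀ (t : ℕ), t ≤ d + 1 →
    ∀ (cs : Fin t → Fin (2 * 2 ^ d) → Bool) (x : Fin (2 * (2 * 2 ^ d))),
      (iterPos (2 * 2 ^ d) t cs x).val =
        ins t (x.val % 2) (iterPos (2 ^ d) t (sub d (x.val % 2) cs)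
          ⟨x.val / 2, by have := x.isLt; omega⟩).val
  | 0, _, cs, x => by
      rw [iterPos_zero, iterPos_zero, ins_zero]
      simp only
      omega
  | t + 1, ht, cs, x => by
      rw [iterPos_succ, iterPos_succ]
      have ih := iterPos_struct d t (by omega) (fun i => cs i.castSucc) x
      exact stepPos_ins d t (x.val % 2) (by omega) (Nat.mod_lt _ (by norm_num))
        (cs (Fin.last t)) _ _ ih

/-! ### The pointwise structure theorem -/

/-- The value of `combine`: `2 w + e ↦ 2 σ_e(w) + (e xor c (σ_e w))`. -/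
theorem combine_val (M : ℕ) (σ0 σ1 : Equiv.Perm (Fin M)) (c : Fin M → Bool) (x : Fin (2 * M)) :
    (combine M σ0 σ1 c x).val =
      2 * ((if x.val % 2 = 1 then σ1 else σ0) ⟨x.val / 2, by have := x.isLt; omega⟩).val +
        (if xor (decide (x.val % 2 = 1))
          (c ((if x.val % 2 = 1 then σ1 else σ0) ⟨x.val / 2, by have := x.isLt; omega⟩))
          then 1 else 0) := by
  rw [combine_apply]
  by_cases h : x.val % 2 = 1
  · simp [posEquiv, h]
  · simp [posEquiv, h]

/-- One pass of the deck of `4 * 2 ^ d` cards: for the coin table `cs' ⊔ c` (`d + 1` rows `cs'`,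
last row `c`), the position map is `combine σ0 σ1 c`, where `σ_e` is the pass of the half deck `e`
driven by `sub d e cs'`. -/
theorem permOf_snoc_struct (d : ℕ) (cs' : Fin (d + 1) → Fin (2 * 2 ^ d) → Bool)
    (c : Fin (2 * 2 ^ d) → Bool) :
    permOf (2 * 2 ^ d) (d + 2) (Fin.snoc (α := fun _ => Fin (2 * 2 ^ d) → Bool) cs' c) =
      combine (2 * 2 ^ d) (permOf (2 ^ d) (d + 1) (sub d 0 cs'))
        (permOf (2 ^ d) (d + 1) (sub d 1 cs')) c := by
  apply Equiv.ext
  intro x
  apply Fin.ext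
  rw [combine_val, coe_permOf]
  have h1 : iterPos (2 * 2 ^ d) (d + 2)
      (Fin.snoc (α := fun _ => Fin (2 * 2 ^ d) → Bool) cs' c) x =
      stepPos (2 * 2 ^ d) c (iterPos (2 * 2 ^ d) (d + 1) cs' x) := by
    have h0 : iterPos (2 * 2 ^ d) (d + 2)
        (Fin.snoc (α := fun _ => Fin (2 * 2 ^ d) → Bool) cs' c) x =
        stepPos (2 * 2 ^ d) ((Fin.snoc (α := fun _ => Fin (2 * 2 ^ d) → Bool) cs' c) (Fin.last (d + 1)))
          (iterPos (2 * 2 ^ d) (d + 1)
            (fun i => (Fin.snoc (α := fun _ => Fin (2 * 2 ^ d) → Bool) cs' c) i.castSucc) x) := rfl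
    rw [h0]
    simp only [Fin.snoc_last, Fin.snoc_castSucc]
  rw [h1, stepPos_val]
  have hs := iterPos_struct d (d + 1) le_rfl cs' x
  rw [ins_top _ _ _ (Fin.isLt _)] at hs
  have hx2 : x.val % 2 = 0 ∨ x.val % 2 = 1 := by omega
  rcases hx2 with h | h
  · rw [h] at hs
    have hne : ¬ (x.val % 2 = 1) := by omega
    simp only [hne, if_false, decide_false, Bool.false_xor]
    have hY : (iterPos (2 * 2 ^ d) (d + 1) cs' x).val =
        (permOf (2 ^ d) (d + 1) (sub d 0 cs') ⟨x.val / 2, by have := x.isLt; omega⟩).val := by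
      rw [hs, coe_permOf]; ring
    have hlt := (permOf (2 ^ d) (d + 1) (sub d 0 cs') ⟨x.val / 2, by have := x.isLt; omega⟩).isLt
    have hmod : (iterPos (2 * 2 ^ d) (d + 1) cs' x).val % (2 * 2 ^ d) =
        (permOf (2 ^ d) (d + 1) (sub d 0 cs') ⟨x.val / 2, by have := x.isLt; omega⟩).val := by
      rw [hY, Nat.mod_eq_of_lt hlt]
    have hnle : ¬ (2 * 2 ^ d ≤ (iterPos (2 * 2 ^ d) (d + 1) cs' x).val) := by
      rw [hY]; omega
    have hc : c ⟨(iterPos (2 * 2 ^ d) (d + 1) cs' x).val % (2 * 2 ^ d),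
        Nat.mod_lt _ (by positivity)⟩ =
        c (permOf (2 ^ d) (d + 1) (sub d 0 cs') ⟨x.val / 2, by have := x.isLt; omega⟩) := by
      congr 1
      apply Fin.ext
      exact hmod
    simp only [hnle, decide_false, Bool.false_xor]
    rw [hc, hmod]
  · rw [h] at hs
    simp only [h, if_true, decide_true, Bool.true_xor]
    have hY : (iterPos (2 * 2 ^ d) (d + 1) cs' x).val = 2 * 2 ^ d +
        (permOf (2 ^ d) (d + 1) (sub d 1 cs') ⟨x.val / 2, by have := x.isLt; omega⟩).val := by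
      rw [hs, coe_permOf]; ring
    have hlt := (permOf (2 ^ d) (d + 1) (sub d 1 cs') ⟨x.val / 2, by have := x.isLt; omega⟩).isLt
    have hmod : (iterPos (2 * 2 ^ d) (d + 1) cs' x).val % (2 * 2 ^ d) =
        (permOf (2 ^ d) (d + 1) (sub d 1 cs') ⟨x.val / 2, by have := x.isLt; omega⟩).val := by
      rw [hY, Nat.add_mod_left, Nat.mod_eq_of_lt hlt]
    have hle : 2 * 2 ^ d ≤ (iterPos (2 * 2 ^ d) (d + 1) cs' x).val := by
      rw [hY]; omega
    have hc : c ⟨(iterPos (2 * 2 ^ d) (d + 1) cs' x).val % (2 * 2 ^ d),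
        Nat.mod_lt _ (by positivity)⟩ =
        c (permOf (2 ^ d) (d + 1) (sub d 1 cs') ⟨x.val / 2, by have := x.isLt; omega⟩) := by
      congr 1
      apply Fin.ext
      exact hmod
    simp only [hle, decide_true, Bool.true_xor]
    rw [hc, hmod]

/-! ### The bijection of coin tables -/

theorem sub_injective (d t : ℕ) (ht : t ≤ d + 1) :
    Function.Injective
      (fun cs : Fin t → Fin (2 * 2 ^ d) → Bool => (sub d 0 cs, sub d 1 cs)) := by
  intro cs cs' h
  simp only [Prod.mk.injEq] at h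
  obtain ⟨h0, h1⟩ := h
  funext i X
  have hi : i.val ≤ d := by have := i.isLt; omega
  have hPQ : 2 ^ i.val * 2 ^ (d - i.val) = 2 ^ d := by rw [← pow_add, Nat.add_sub_of_le hi]
  obtain ⟨e, u, he, hu, hX⟩ :=
    ins_surj i.val X.val (2 ^ (d - i.val)) (by rw [hPQ]; exact X.isLt)
  rw [hPQ] at hu
  have hXe : X = ⟨ins i.val e u % (2 * 2 ^ d), Nat.mod_lt _ (by positivity)⟩ := by
    apply Fin.ext
    simp only
    rw [hX, Nat.mod_eq_of_lt X.isLt]
  rw [hXe]
  interval_cases e
  · exact congrFun (congrFun h0 i) ⟨u, hu⟩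
  · exact congrFun (congrFun h1 i) ⟨u, hu⟩

theorem sub_bijective (d t : ℕ) (ht : t ≤ d + 1) :
    Function.Bijective
      (fun cs : Fin t → Fin (2 * 2 ^ d) → Bool => (sub d 0 cs, sub d 1 cs)) := by
  rw [Fintype.bijective_iff_injective_and_card]
  refine ⟨sub_injective d t ht, ?_⟩
  simp only [Fintype.card_prod, Fintype.card_pi, Fintype.card_bool, Finset.prod_const,
    Finset.card_univ, Fintype.card_fin]
  rw [← mul_pow, ← pow_add, two_mul]

/-! ### The structure theorem for expectations -/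

/-- The sum over all coin tables of one pass of the big deck, reorganised as a sum over the last
row and the coin tables of the two half decks. -/
theorem sum_pass_struct (d : ℕ) (F : Equiv.Perm (Fin (2 * (2 * 2 ^ d))) → ℝ) :
    (∑ cs : Fin (d + 2) → Fin (2 * 2 ^ d) → Bool, F (permOf (2 * 2 ^ d) (d + 2) cs)) =
      ∑ c : Fin (2 * 2 ^ d) → Bool, ∑ a0 : Fin (d + 1) → Fin (2 ^ d) → Bool,
        ∑ a1 : Fin (d + 1) → Fin (2 ^ d) → Bool,
          F (combine (2 * 2 ^ d) (permOf (2 ^ d) (d + 1) a0) (permOf (2 ^ d) (d + 1) a1) c) := by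
  rw [← Equiv.sum_comp (Fin.snocEquiv (fun _ : Fin (d + 1 + 1) => Fin (2 * 2 ^ d) → Bool))
    (fun cs => F (permOf (2 * 2 ^ d) (d + 2) cs)), Fintype.sum_prod_type]
  apply Finset.sum_congr rfl
  intro c _
  have h2 : ∀ cs' : Fin (d + 1) → Fin (2 * 2 ^ d) → Bool,
      F (permOf (2 * 2 ^ d) (d + 2)
        ((Fin.snocEquiv (fun _ : Fin (d + 1 + 1) => Fin (2 * 2 ^ d) → Bool)) (c, cs'))) =
      (fun p : (Fin (d + 1) → Fin (2 ^ d) → Bool) × (Fin (d + 1) → Fin (2 ^ d) → Bool) =>
        F (combine (2 * 2 ^ d) (permOf (2 ^ d) (d + 1) p.1) (permOf (2 ^ d) (d + 1) p.2) c))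
        ((fun cs : Fin (d + 1) → Fin (2 * 2 ^ d) → Bool => (sub d 0 cs, sub d 1 cs)) cs') := by
    intro cs'
    simp only
    rw [← permOf_snoc_struct]
    rfl
  rw [Fintype.sum_bijective (fun cs : Fin (d + 1) → Fin (2 * 2 ^ d) → Bool => (sub d 0 cs, sub d 1 cs))
    (sub_bijective d (d + 1) le_rfl) _
    (fun p : (Fin (d + 1) → Fin (2 ^ d) → Bool) × (Fin (d + 1) → Fin (2 ^ d) → Bool) =>
      F (combine (2 * 2 ^ d) (permOf (2 ^ d) (d + 1) p.1) (permOf (2 ^ d) (d + 1) p.2) c)) h2,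
    Fintype.sum_prod_type]

/-- One pass of the deck of `4 * 2 ^ d` cards = two independent passes of the half decks (even and
odd positions), followed by an independent uniform layer of column swaps. -/
theorem expect_pass_struct (d : ℕ) (F : Equiv.Perm (Fin (2 * (2 * 2 ^ d))) → ℝ) :
    expect (2 * 2 ^ d) (d + 2) F =
      (∑ c : Fin (2 * 2 ^ d) → Bool,
        expect (2 ^ d) (d + 1) (fun σ0 => expect (2 ^ d) (d + 1)
          (fun σ1 => F (combine (2 * 2 ^ d) σ0 σ1 c)))) / (2 : ℝ) ^ (2 * 2 ^ d) := by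
  unfold expect
  rw [sum_pass_struct]
  have hA : (2 : ℝ) ^ (2 * 2 ^ d * (d + 2)) =
      (2 : ℝ) ^ (2 ^ d * (d + 1)) * (2 : ℝ) ^ (2 ^ d * (d + 1)) * (2 : ℝ) ^ (2 * 2 ^ d) := by
    rw [← pow_add, ← pow_add]
    congr 1
    ring
  rw [hA]
  simp_rw [← Finset.sum_div]
  rw [div_div, div_div, mul_assoc]

/-- WORK PACKAGE S of the GAP pre-build, in the interface of `Helper13.Gap`. -/
theorem structStmt (d : ℕ) : StructStmt d := by
  intro F
  rw [expect_pass_struct]
  simp_rw [expect_eq_sum_law]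
  rw [Finset.sum_div]
  simp_rw [Finset.mul_sum, Finset.sum_div]
  rw [Finset.sum_comm]
  apply Finset.sum_congr rfl
  intro σ0 _
  rw [Finset.sum_comm]
  apply Finset.sum_congr rfl
  intro σ1 _
  apply Finset.sum_congr rfl
  intro c _
  ring

end Crest.Agent.Helper3.Shuffle
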