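import Mathlib
import Crest.Agent.Helper3.Shuffle.Struct

/-!
helper3: single-card uniformity of one pass of the shuffle of `Def_Shuffle`, and the base case of
the GAP induction (row 155, S0222; leaves of the conditional GAP pre-build).

* `SU m t` : after `t` shuffles of the deck with parameter `m`, every single card is exactly
  uniform;
* `su_step` : `SU` passes from the half deck to the big deck along the structure of one pass;
* `su_pass` : `SU (2 ^ d) (d + 1)` for every `d`;
* `single_uniform_law` : the same in the shape needed by `Helper13.Gap.StepStmt`;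
* `law_one_one`, `gapStmt_zero` : one shuffle of the deck of two cards is exactly uniform, hence
  `GapStmt 0 0`.
-/

set_option autoImplicit false

namespace Crest.Agent.Helper3.Shuffle

open Crest.ProbabilityR.Shuffle Crest.Agent.Helper13.Shuffle Crest.Agent.Helper13.Gap

/-- After `t` shuffles of the deck with parameter `m` (`2 * m` cards), every single card is
exactly uniform: `P(permOf m t cs y = z) = 1 / (2 m)`. -/
def SU (m t : ℕ) : Prop :=
  ∀ y z : Fin (2 * m), expect m t (fun k => if k y = z then (1 : ℝ) else 0) = 1 / (2 * (m : ℝ))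

theorem expect_const (m t : ℕ) (a : ℝ) : expect m t (fun _ => a) = a := by
  rw [expect_eq_sum_law, ← Finset.sum_mul, sum_law, one_mul]

theorem expect_const_mul (m t : ℕ) (a : ℝ) (f : Equiv.Perm (Fin (2 * m)) → ℝ) :
    expect m t (fun k => a * f k) = a * expect m t f := by
  rw [expect_eq_sum_law, expect_eq_sum_law, Finset.mul_sum]
  apply Finset.sum_congr rfl
  intro g _
  ring

/-- `combine σ0 σ1 c` sends `y` to `z` iff the half-deck permutation of the row of `y` sends the
column of `y` to the column of `z` and the coin of that column produces the row of `z`. -/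
theorem combine_eq_iff (M : ℕ) (σ0 σ1 : Equiv.Perm (Fin M)) (c : Fin M → Bool)
    (y z : Fin (2 * M)) :
    combine M σ0 σ1 c y = z ↔
      ((if y.val % 2 = 1 then σ1 else σ0) ⟨y.val / 2, by have := y.isLt; omega⟩ =
          ⟨z.val / 2, by have := z.isLt; omega⟩ ∧
        c ⟨z.val / 2, by have := z.isLt; omega⟩ =
          xor (decide (y.val % 2 = 1)) (decide (z.val % 2 = 1))) := by
  have hv := combine_val M σ0 σ1 c y
  constructor
  · intro h
    rw [h] at hv
    by_cases h1 : y.val % 2 = 1
    · simp only [h1, if_true, decide_true, Bool.true_xor] at hv ⊢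
      have ha : σ1 ⟨y.val / 2, by have := y.isLt; omega⟩ =
          ⟨z.val / 2, by have := z.isLt; omega⟩ := by
        apply Fin.ext
        simp only
        split_ifs at hv <;> omega
      refine ⟨ha, ?_⟩
      rw [ha] at hv
      by_cases h2 : z.val % 2 = 1 <;>
        cases hc : c ⟨z.val / 2, by have := z.isLt; omega⟩ <;>
        simp [h2, hc] at hv ⊢ <;> omega
    · simp only [h1, if_false, decide_false, Bool.false_xor] at hv ⊢
      have ha : σ0 ⟨y.val / 2, by have := y.isLt; omega⟩ =
          ⟨z.val / 2, by have := z.isLt; omega⟩ := by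
        apply Fin.ext
        simp only
        split_ifs at hv <;> omega
      refine ⟨ha, ?_⟩
      rw [ha] at hv
      by_cases h2 : z.val % 2 = 1 <;>
        cases hc : c ⟨z.val / 2, by have := z.isLt; omega⟩ <;>
        simp [h2, hc] at hv ⊢ <;> omega
  · rintro ⟨h1, h2⟩
    apply Fin.ext
    rw [hv, h1, h2]
    by_cases hy : y.val % 2 = 1 <;> by_cases hz : z.val % 2 = 1 <;> simp [hy, hz] <;> omega

/-- Exactly half of the coin rows have a prescribed value at a prescribed column. -/
theorem sum_coin_eq (M : ℕ) (w : Fin M) (b : Bool) :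
    (∑ c : Fin M → Bool, (if c w = b then (1 : ℝ) else 0)) = 2 ^ M / 2 := by
  have h1 : (∑ c : Fin M → Bool, (if c w = b then (1 : ℝ) else 0)) =
      ∑ c : Fin M → Bool, (if c w = !b then (1 : ℝ) else 0) := by
    have hinv : Function.Involutive (fun c : Fin M → Bool => Function.update c w (!c w)) := by
      intro c
      funext j
      by_cases hj : j = w
      · subst hj; simp
      · simp [Function.update_of_ne hj]
    apply Fintype.sum_equiv (Function.Involutive.toPerm _ hinv)
    intro c
    have : ((Function.Involutive.toPerm _ hinv) c) w = !c w := by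
      simp [Function.Involutive.toPerm]
    rw [this]
    cases c w <;> cases b <;> simp
  have h2 : (∑ c : Fin M → Bool,
      ((if c w = b then (1 : ℝ) else 0) + (if c w = !b then (1 : ℝ) else 0))) = 2 ^ M := by
    have h3 : ∀ c : Fin M → Bool,
        ((if c w = b then (1 : ℝ) else 0) + (if c w = !b then (1 : ℝ) else 0)) = 1 := by
      intro c
      cases c w <;> cases b <;> simp
    simp [h3]
  rw [Finset.sum_add_distrib, ← h1] at h2
  linarith

/-- Single-card uniformity passes from the half deck to the big deck along the structure of one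
pass. -/
theorem su_step (m' t : ℕ)
    (hrec : ∀ F : Equiv.Perm (Fin (2 * (2 * m'))) → ℝ,
      expect (2 * m') (t + 1) F =
        (∑ c : Fin (2 * m') → Bool,
          expect m' t (fun σ0 => expect m' t (fun σ1 => F (combine (2 * m') σ0 σ1 c)))) /
            (2 : ℝ) ^ (2 * m'))
    (hsu : SU m' t) : SU (2 * m') (t + 1) := by
  intro y z
  rw [hrec]
  have hy := y.isLt
  have hz := z.isLt
  -- the probability that the half-deck permutations send the column of `y` to the column of `z`
  have hA : expect m' t (fun σ0 => expect m' t (fun σ1 =>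
      if (if y.val % 2 = 1 then σ1 else σ0) ⟨y.val / 2, by omega⟩ =
        (⟨z.val / 2, by omega⟩ : Fin (2 * m')) then (1 : ℝ) else 0)) = 1 / (2 * (m' : ℝ)) := by
    by_cases h : y.val % 2 = 1
    · simp only [h, if_true]
      rw [hsu, expect_const]
    · simp only [h, if_false]
      simp_rw [expect_const]
      exact hsu _ _
  have hc : ∀ c : Fin (2 * m') → Bool,
      expect m' t (fun σ0 => expect m' t (fun σ1 =>
        if combine (2 * m') σ0 σ1 c y = z then (1 : ℝ) else 0)) =
      (if c ⟨z.val / 2, by omega⟩ = xor (decide (y.val % 2 = 1)) (decide (z.val % 2 = 1))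
        then (1 : ℝ) else 0) * (1 / (2 * (m' : ℝ))) := by
    intro c
    rw [← hA, ← expect_const_mul]
    congr 1
    funext σ0
    rw [← expect_const_mul]
    congr 1
    funext σ1
    by_cases h1 : (if y.val % 2 = 1 then σ1 else σ0) ⟨y.val / 2, by omega⟩ =
        (⟨z.val / 2, by omega⟩ : Fin (2 * m'))
    · by_cases h2 : c ⟨z.val / 2, by omega⟩ =
          xor (decide (y.val % 2 = 1)) (decide (z.val % 2 = 1))
      · rw [if_pos ((combine_eq_iff _ _ _ _ _ _).mpr ⟨h1, h2⟩), if_pos h1, if_pos h2]
        ring
      · rw [if_neg (fun h => h2 ((combine_eq_iff _ _ _ _ _ _).mp h).2), if_neg h2]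
        ring
    · rw [if_neg (fun h => h1 ((combine_eq_iff _ _ _ _ _ _).mp h).1), if_neg h1]
      ring
  simp_rw [hc]
  rw [← Finset.sum_mul, sum_coin_eq]
  have hpos : (0 : ℝ) < 2 ^ (2 * m') := by positivity
  push_cast
  field_simp

/-- (H1) After one pass (`d + 1` shuffles of `2 * 2 ^ d` cards) every single card is exactly
uniform. -/
theorem su_pass : ∀ d : ℕ, SU (2 ^ d) (d + 1)
  | 0 => by
      intro y z
      unfold expect
      have hcard : ∀ y z : Fin (2 * 2 ^ 0),
          (Finset.univ.filter
            (fun cs : Fin (0 + 1) → Fin (2 ^ 0) → Bool => iterPos (2 ^ 0) (0 + 1) cs y = z)).card = 1 := by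
        decide
      have hsum : (∑ cs : Fin (0 + 1) → Fin (2 ^ 0) → Bool,
          (if permOf (2 ^ 0) (0 + 1) cs y = z then (1 : ℝ) else 0)) = 1 := by
        rw [Finset.sum_boole]
        have := hcard y z
        simp only [coe_permOf]
        exact_mod_cast this
      rw [hsum]
      norm_num
  | d + 1 => by
      have h : 2 ^ (d + 1) = 2 * 2 ^ d := by ring
      rw [h]
      exact su_step (2 ^ d) (d + 1) (expect_pass_struct d) (su_pass d)

/-- (H1) in the shape of the hypothesis of `Helper13.Gap.StepStmt` (with `ι = Fin (2 * 2 ^ d)` and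
`ν = law (2 ^ d) (d + 1)`). -/
theorem single_uniform_law (d : ℕ) (y z : Fin (2 * 2 ^ d)) :
    ∑ σ : Equiv.Perm (Fin (2 * 2 ^ d)), (if σ y = z then law (2 ^ d) (d + 1) σ else 0) =
      1 / (Fintype.card (Fin (2 * 2 ^ d)) : ℝ) := by
  have h := su_pass d y z
  rw [expect_eq_sum_law] at h
  rw [Fintype.card_fin]
  push_cast at h ⊢
  rw [← h]
  apply Finset.sum_congr rfl
  intro σ _
  by_cases hσ : σ y = z <;> simp [hσ]

/-! ### The base case: the deck of two cards -/

/-- One shuffle of the deck of two cards produces each of the two permutations with probability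
`1/2`. -/
theorem law_one_one (k : Equiv.Perm (Fin (2 * 2 ^ 0))) : law (2 ^ 0) (0 + 1) k = 1 / 2 := by
  have h := single_uniform_law 0 ⟨0, by norm_num⟩ (k ⟨0, by norm_num⟩)
  have huniq : ∀ σ k : Equiv.Perm (Fin (2 * 2 ^ 0)),
      σ ⟨0, by norm_num⟩ = k ⟨0, by norm_num⟩ → σ = k := by decide
  have h2 : ∑ σ : Equiv.Perm (Fin (2 * 2 ^ 0)),
      (if σ ⟨0, by norm_num⟩ = k ⟨0, by norm_num⟩ then law (2 ^ 0) (0 + 1) σ else 0) =
      law (2 ^ 0) (0 + 1) k := by
    rw [Finset.sum_eq_single k]
    · simp
    · intro σ _ hne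
      rw [if_neg (fun h' => hne (huniq σ k h'))]
    · intro hk
      exact absurd (Finset.mem_univ k) hk
  rw [h2] at h
  rw [h, Fintype.card_fin]
  norm_num

/-- The base case of the GAP induction: one shuffle of the deck of two cards kills every mean-zero
function. -/
theorem gapStmt_zero : GapStmt 0 0 := by
  intro ψ hψ
  have h0 : ∀ g : Equiv.Perm (Fin (2 * 2 ^ 0)),
      ∑ k : Equiv.Perm (Fin (2 * 2 ^ 0)), law (2 ^ 0) (0 + 1) k * ψ (k⁻¹ * g) = 0 := by
    intro g
    simp_rw [law_one_one]
    rw [← Finset.mul_sum]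
    have hre : ∑ k : Equiv.Perm (Fin (2 * 2 ^ 0)), ψ (k⁻¹ * g) = ∑ h, ψ h := by
      apply Fintype.sum_equiv ((Equiv.inv _).trans (Equiv.mulRight g))
      intro k
      rfl
    rw [hre, hψ, mul_zero]
  simp_rw [h0]
  simp

end Crest.Agent.Helper3.Shuffle
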