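import Mathlib
import Crest.Agent.Helper3.Shuffle.Struct
import Crest.Agent.Helper54.Shuffle.GapDefs

/-!
helper3: the structure of one pass (`Crest.Agent.Helper3.Shuffle.expect_pass_struct`) restated in
the interface of `Crest.Agent.Helper54.Shuffle` (`PassRec`), so that the GAP assembly can be written
against either interface.
-/

set_option autoImplicit false

namespace Crest.Agent.Helper3.Shuffle

open Crest.ProbabilityR.Shuffle Crest.Agent.Helper13.Shuffle

/-- The two interfaces describe the same permutation of the positions. -/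
theorem swapCols_mul_rows (M : ℕ) (π0 π1 : Equiv.Perm (Fin M)) (c : Fin M → Bool) :
    Crest.Agent.Helper54.Shuffle.swapCols c * Crest.Agent.Helper54.Shuffle.rows π0 π1 =
      Crest.Agent.Helper13.Gap.combine M π0 π1 c := by
  apply Equiv.ext
  intro x
  rw [Equiv.Perm.mul_apply, Crest.Agent.Helper54.Shuffle.rows_apply,
    Crest.Agent.Helper54.Shuffle.swapCols_mkPos, Crest.Agent.Helper13.Gap.combine_apply]
  apply Fin.ext
  by_cases h : x.val % 2 = 1
  · simp [Crest.Agent.Helper54.Shuffle.mkPos, Crest.Agent.Helper54.Shuffle.rowOf,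
      Crest.Agent.Helper54.Shuffle.colOf, Crest.Agent.Helper13.Gap.posEquiv, h]
  · simp [Crest.Agent.Helper54.Shuffle.mkPos, Crest.Agent.Helper54.Shuffle.rowOf,
      Crest.Agent.Helper54.Shuffle.colOf, Crest.Agent.Helper13.Gap.posEquiv, h]

/-- WORK PACKAGE W1 of the GAP pre-build, in the interface of `Helper54.Shuffle`. -/
theorem passRec (d : ℕ) : Crest.Agent.Helper54.Shuffle.PassRec (2 ^ d) (d + 1) := by
  intro F
  have h := expect_pass_struct d F
  simp_rw [← swapCols_mul_rows] at h
  exact h

end Crest.Agent.Helper3.Shuffle
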