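import Mathlib
import Crest.Agent.Helper3.Shuffle.Single
import Crest.Agent.Helper3.Shuffle.Struct54

/-!
helper3: single-card uniformity and the base case of the GAP induction, restated in the interface
of `Crest.Agent.Helper54.Shuffle` (work package W2 of helper54's plan).
-/

set_option autoImplicit false

namespace Crest.Agent.Helper3.Shuffle

open Crest.ProbabilityR.Shuffle Crest.Agent.Helper13.Shuffle

/-- `SingleUniform` of `Helper54.Shuffle` is `SU`. -/
theorem singleUniform_iff (m t : ℕ) : Crest.Agent.Helper54.Shuffle.SingleUniform m t ↔ SU m t :=
  Iff.rfl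

/-- (W2) single-card uniformity passes from the half deck to the big deck. -/
theorem singleUniform_step (m' t : ℕ) (hrec : Crest.Agent.Helper54.Shuffle.PassRec m' t)
    (hsu : Crest.Agent.Helper54.Shuffle.SingleUniform m' t) :
    Crest.Agent.Helper54.Shuffle.SingleUniform (2 * m') (t + 1) := by
  refine su_step m' t ?_ hsu
  intro F
  have h := hrec F
  simp_rw [swapCols_mul_rows] at h
  exact h

/-- (H1) after one pass every single card is exactly uniform. -/
theorem singleUniform_pass (d : ℕ) : Crest.Agent.Helper54.Shuffle.SingleUniform (2 ^ d) (d + 1) :=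
  su_pass d

/-- (W2) the deck of two cards after one shuffle. -/
theorem singleUniform_one : Crest.Agent.Helper54.Shuffle.SingleUniform 1 1 :=
  su_pass 0

/-- (W2) one shuffle of the deck of two cards kills every mean-zero function. -/
theorem contracts_one : Crest.Agent.Helper54.Shuffle.Contracts 1 1 0 :=
  gapStmt_zero

end Crest.Agent.Helper3.Shuffle
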