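import Crest.Agent.Helper13.Shuffle.GapUncond

/-!
helper3: the "typical density" end game for row 155 / S0222 (reduction (R-b) of
`notes/s0222/STATE.md`).  CONDITIONAL on a spread statement that is NOT proved anywhere.

* `tv_le_of_typical` : if after `s` shuffles a set `G` of arrangements carries all but `δ` of the
  mass and the density `N m * law m s g` is at most `A` on `G`, and `D` shuffles contract
  mean-zero functions (squared `L²` norm) by `lam`, then
  `tvFromUniform m (s + j * D) ≤ δ + (1/2) * sqrt (A * lam ^ j)`;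
* `mass_compl_le_of_moment` : Markov: a bound `∑ law * φ (N * law) ≤ B` for a nonnegative
  nondecreasing `φ` gives such a set `G = {density ≤ A}` with `δ = B / φ A`;
* `s0222_of_typical`, `s0222_of_typical_poly`, `s0222_of_moment` : the statement of S0222 from a
  typical-density / moment bound after `K0` passes (`K0 + J ≤ 1600`).
-/

set_option autoImplicit false

namespace Crest.Agent.Helper3.Shuffle

open Crest.ProbabilityR.Shuffle Crest.Agent.Helper13.Shuffle
open Crest.Agent.Helper54.Shuffle (Contracts)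
open Crest.Agent.Helper13.Gap (lamSeq lamSeq_nonneg lamSeq_le gap_uncond)

/-! ### Linearity and `L¹` contraction of the Markov operator -/

theorem opL_add_fun (m t : ℕ) (φ ψ : Equiv.Perm (Fin (2 * m)) → ℝ) (g : Equiv.Perm (Fin (2 * m))) :
    opL m t (fun k => φ k + ψ k) g = opL m t φ g + opL m t ψ g := by
  unfold opL
  rw [← Finset.sum_add_distrib]
  apply Finset.sum_congr rfl
  intro k _
  ring

theorem sum_abs_opL_le (m t : ℕ) (ψ : Equiv.Perm (Fin (2 * m)) → ℝ) :
    ∑ g, |opL m t ψ g| ≤ ∑ g, |ψ g| := by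
  have h := sum_abs_mix_le (law m t) (law_nonneg m t)
    (fun k : Equiv.Perm (Fin (2 * m)) => Equiv.mulLeft k⁻¹) ψ
  rw [sum_law, one_mul] at h
  exact h

/-- Iterated contraction for an arbitrary mean-zero function. -/
theorem sum_sq_opL_iterate (m D : ℕ) (lam : ℝ) (hlam : 0 ≤ lam) (hC : Contracts m D lam) :
    ∀ (j : ℕ) (ψ : Equiv.Perm (Fin (2 * m)) → ℝ), ∑ g, ψ g = 0 →
      ∑ g, (opL m (j * D) ψ g) ^ 2 ≤ lam ^ j * ∑ g, (ψ g) ^ 2
  | 0, ψ, _ => by
      rw [pow_zero, one_mul]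
      exact sum_sq_opL_le m (0 * D) ψ
  | j + 1, ψ, hψ => by
      have e : (j + 1) * D = j * D + D := by ring
      rw [e, opL_add]
      have h0 : ∑ g, opL m (j * D) ψ g = 0 := by rw [sum_opL, hψ]
      calc ∑ g, (opL m D (opL m (j * D) ψ) g) ^ 2
          ≤ lam * ∑ g, (opL m (j * D) ψ g) ^ 2 := hC _ h0
        _ ≤ lam * (lam ^ j * ∑ g, (ψ g) ^ 2) :=
            mul_le_mul_of_nonneg_left (sum_sq_opL_iterate m D lam hlam hC j ψ hψ) hlam
        _ = lam ^ (j + 1) * ∑ g, (ψ g) ^ 2 := by ring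

/-- Cauchy–Schwarz on the set of arrangements. -/
theorem sum_abs_le_sqrt (m : ℕ) (x : Equiv.Perm (Fin (2 * m)) → ℝ) :
    ∑ g, |x g| ≤ Real.sqrt (N m * ∑ g, (x g) ^ 2) := by
  apply Real.le_sqrt_of_sq_le
  have h := sq_sum_le_card_mul_sum_sq (s := (Finset.univ : Finset (Equiv.Perm (Fin (2 * m)))))
    (f := fun g => |x g|)
  rw [card_perm] at h
  simpa [sq_abs] using h

/-! ### The truncation lemma -/

/-- (R-b) If `G` carries all but `δ` of the mass after `s` shuffles and the density is at most `A`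
on `G`, then after `j` further blocks of `D` shuffles, each contracting by `lam`, the distance from
uniform is at most `δ + (1/2) * sqrt (A * lam ^ j)`. -/
theorem tv_le_of_typical (m s D j : ℕ) (lam δ A : ℝ) (hlam : 0 ≤ lam) (hA0 : 0 ≤ A)
    (hC : Contracts m D lam) (G : Finset (Equiv.Perm (Fin (2 * m))))
    (hδ : ∑ g ∈ Gᶜ, law m s g ≤ δ)
    (hA : ∀ g ∈ G, N m * law m s g ≤ A) :
    tvFromUniform m (s + j * D) ≤ δ + (1 / 2) * Real.sqrt (A * lam ^ j) := by
  classical
  set a : Equiv.Perm (Fin (2 * m)) → ℝ := fun g => if g ∈ G then law m s g else 0 with ha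
  set b : Equiv.Perm (Fin (2 * m)) → ℝ := fun g => if g ∈ G then 0 else law m s g with hb
  set α : ℝ := ∑ g, a g with hα
  set β : ℝ := ∑ g, b g with hβ
  have hNpos := N_pos m
  have hab : ∀ g, a g + b g = law m s g := by
    intro g
    by_cases hg : g ∈ G <;> simp [ha, hb, hg]
  have ha0 : ∀ g, 0 ≤ a g := by
    intro g
    by_cases hg : g ∈ G <;> simp [ha, hg, law_nonneg]
  have hb0 : ∀ g, 0 ≤ b g := by
    intro g
    by_cases hg : g ∈ G <;> simp [hb, hg, law_nonneg]
  have hαβ : α + β = 1 := by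
    rw [hα, hβ, ← Finset.sum_add_distrib]
    rw [← sum_law m s]
    exact Finset.sum_congr rfl (fun g _ => hab g)
  have hα0 : 0 ≤ α := Finset.sum_nonneg (fun g _ => ha0 g)
  have hβ0 : 0 ≤ β := Finset.sum_nonneg (fun g _ => hb0 g)
  have hα1 : α ≤ 1 := by linarith
  have hβδ : β ≤ δ := by
    refine le_trans (le_of_eq ?_) hδ
    rw [hβ, ← Finset.sum_compl_add_sum G]
    have h1 : ∑ g ∈ G, b g = 0 := Finset.sum_eq_zero (fun g hg => by simp [hb, hg])
    have h2 : ∑ g ∈ Gᶜ, b g = ∑ g ∈ Gᶜ, law m s g :=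
      Finset.sum_congr rfl (fun g hg => by
        have : g ∉ G := Finset.mem_compl.mp hg
        simp [hb, this])
    rw [h1, h2, add_zero]
  -- the two mean-zero pieces
  set ψ : Equiv.Perm (Fin (2 * m)) → ℝ := fun g => a g - α / N m with hψ
  set χ : Equiv.Perm (Fin (2 * m)) → ℝ := fun g => b g - β / N m with hχ
  have hconst : ∀ c : ℝ, ∑ _g : Equiv.Perm (Fin (2 * m)), c / N m = c := by
    intro c
    rw [Finset.sum_const, nsmul_eq_mul, card_perm]
    field_simp
  have hψ0 : ∑ g, ψ g = 0 := by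
    rw [hψ, Finset.sum_sub_distrib, hconst α, ← hα, sub_self]
  have hdev : dev m s = fun g => ψ g + χ g := by
    funext g
    rw [hψ, hχ]
    unfold dev
    have := hab g
    have h1 : α / N m + β / N m = 1 / N m := by rw [← add_div, hαβ]
    linarith
  have hdev' : ∀ g, dev m (s + j * D) g = opL m (j * D) ψ g + opL m (j * D) χ g := by
    intro g
    rw [dev_add_eq_opL, hdev, opL_add_fun]
  -- the small-mass piece
  have hχ1 : ∑ g, |opL m (j * D) χ g| ≤ 2 * δ := by
    refine (sum_abs_opL_le m (j * D) χ).trans ?_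
    have h1 : ∀ g, |χ g| ≤ b g + β / N m := by
      intro g
      rw [hχ]
      refine (abs_sub _ _).trans ?_
      rw [abs_of_nonneg (hb0 g), abs_of_nonneg (div_nonneg hβ0 hNpos.le)]
    refine (Finset.sum_le_sum (fun g _ => h1 g)).trans ?_
    rw [Finset.sum_add_distrib, hconst β, ← hβ]
    linarith
  -- the bounded-density piece
  have hsqa : ∑ g, (a g) ^ 2 ≤ A / N m := by
    have h1 : ∀ g, (a g) ^ 2 ≤ (A / N m) * a g := by
      intro g
      by_cases hg : g ∈ G
      · have h2 : law m s g ≤ A / N m := by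
          rw [le_div_iff₀ hNpos]
          have := hA g hg
          linarith
        have h3 : a g = law m s g := by simp [ha, hg]
        rw [h3, sq]
        exact mul_le_mul_of_nonneg_right h2 (law_nonneg m s g)
      · have h3 : a g = 0 := by simp [ha, hg]
        rw [h3]
        simp
    refine (Finset.sum_le_sum (fun g _ => h1 g)).trans ?_
    rw [← Finset.mul_sum, ← hα]
    have : 0 ≤ A / N m := div_nonneg hA0 hNpos.le
    nlinarith
  have hsqψ : ∑ g, (ψ g) ^ 2 ≤ A / N m := by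
    have h1 : ∑ g, (ψ g) ^ 2 = ∑ g, (a g) ^ 2 - α ^ 2 / N m := by
      have h2 : ∀ g, (ψ g) ^ 2 = (a g) ^ 2 - 2 * (α / N m) * a g + (α / N m) ^ 2 := by
        intro g
        rw [hψ]
        ring
      simp_rw [h2]
      rw [Finset.sum_add_distrib, Finset.sum_sub_distrib, ← Finset.mul_sum, ← hα,
        Finset.sum_const, nsmul_eq_mul, card_perm]
      field_simp
      ring
    rw [h1]
    have : 0 ≤ α ^ 2 / N m := div_nonneg (sq_nonneg α) hNpos.le
    linarith
  have hψ1 : ∑ g, |opL m (j * D) ψ g| ≤ Real.sqrt (A * lam ^ j) := by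
    refine (sum_abs_le_sqrt m _).trans ?_
    apply Real.sqrt_le_sqrt
    have h1 := sum_sq_opL_iterate m D lam hlam hC j ψ hψ0
    have hlj : 0 ≤ lam ^ j := pow_nonneg hlam j
    calc N m * ∑ g, (opL m (j * D) ψ g) ^ 2
        ≤ N m * (lam ^ j * ∑ g, (ψ g) ^ 2) := mul_le_mul_of_nonneg_left h1 hNpos.le
      _ ≤ N m * (lam ^ j * (A / N m)) :=
          mul_le_mul_of_nonneg_left (mul_le_mul_of_nonneg_left hsqψ hlj) hNpos.le
      _ = A * lam ^ j := by
          field_simp
  rw [tv_eq]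
  have h3 : ∑ g, |dev m (s + j * D) g| ≤
      ∑ g, |opL m (j * D) ψ g| + ∑ g, |opL m (j * D) χ g| := by
    rw [← Finset.sum_add_distrib]
    apply Finset.sum_le_sum
    intro g _
    rw [hdev' g]
    exact abs_add_le _ _
  linarith

/-! ### Markov: from a moment bound to a typical-density bound -/

open Classical in
/-- The set of arrangements whose density after `s` shuffles is at most `A`. -/
noncomputable def lowDensity (m s : ℕ) (A : ℝ) : Finset (Equiv.Perm (Fin (2 * m))) :=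
  Finset.univ.filter (fun g => N m * law m s g ≤ A)

theorem le_of_mem_lowDensity (m s : ℕ) (A : ℝ) (g : Equiv.Perm (Fin (2 * m)))
    (hg : g ∈ lowDensity m s A) : N m * law m s g ≤ A := by
  classical
  unfold lowDensity at hg
  exact (Finset.mem_filter.mp hg).2

/-- Markov's inequality for the density: if `∑ law * φ (N * law) ≤ B` with `φ ≥ 0` nondecreasing
on the nonnegative reals and `φ A > 0`, then the arrangements of density `> A` carry mass at most
`B / φ A`. -/
theorem mass_compl_le_of_moment (m s : ℕ) (φ : ℝ → ℝ) (A B : ℝ)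
    (hφ0 : ∀ x, 0 ≤ x → 0 ≤ φ x) (hφ : ∀ x y, 0 ≤ x → x ≤ y → φ x ≤ φ y)
    (hA0 : 0 ≤ A) (hφA : 0 < φ A)
    (hB : ∑ g, law m s g * φ (N m * law m s g) ≤ B) :
    ∑ g ∈ (lowDensity m s A)ᶜ, law m s g ≤ B / φ A := by
  classical
  rw [le_div_iff₀ hφA, Finset.sum_mul]
  refine le_trans ?_ hB
  have hnn : ∀ g, 0 ≤ law m s g * φ (N m * law m s g) := fun g =>
    mul_nonneg (law_nonneg m s g) (hφ0 _ (mul_nonneg (N_pos m).le (law_nonneg m s g)))
  refine le_trans ?_ (Finset.sum_le_univ_sum_of_nonneg (s := (lowDensity m s A)ᶜ) hnn)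
  apply Finset.sum_le_sum
  intro g hg
  have hg' : ¬ N m * law m s g ≤ A := by
    have : g ∉ lowDensity m s A := Finset.mem_compl.mp hg
    unfold lowDensity at this
    simpa using this
  exact mul_le_mul_of_nonneg_left (hφ A _ hA0 (not_le.mp hg').le) (law_nonneg m s g)

/-! ### End games for S0222 -/

open Filter in
/-- END GAME, typical-density form: if for all large `d` some set `G` of arrangements carries all
but `δ d` of the mass after `K0` passes and the density is at most `A d` on `G`, with `δ d → 0` and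
`lamSeq d ^ J * A d → 0`, `K0 + J ≤ 1600`, then the statement of S0222 holds. -/
theorem s0222_of_typical (K0 J : ℕ) (hK : K0 + J ≤ 1600) (δ A : ℕ → ℝ)
    (hδ : Tendsto δ atTop (nhds 0))
    (hlim : Tendsto (fun d : ℕ => lamSeq d ^ J * A d) atTop (nhds 0))
    (hG : ∀ᶠ d in atTop, 0 ≤ A d ∧ ∃ G : Finset (Equiv.Perm (Fin (2 * 2 ^ d))),
      (∑ g ∈ Gᶜ, law (2 ^ d) (K0 * (d + 1)) g ≤ δ d) ∧
        ∀ g ∈ G, N (2 ^ d) * law (2 ^ d) (K0 * (d + 1)) g ≤ A d) :
    Tendsto (fun d : ℕ => tvFromUniform (2 ^ d) (1600 * (d + 1))) atTop (nhds 0) := by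
  apply tendsto_tv_1600_of_tv (K0 + J) hK
  have hsq : Tendsto (fun d : ℕ => Real.sqrt (A d * lamSeq d ^ J)) atTop (nhds 0) := by
    have h1 : Tendsto (fun d : ℕ => A d * lamSeq d ^ J) atTop (nhds 0) := by
      simpa [mul_comm] using hlim
    have h2 := (Real.continuous_sqrt.tendsto 0).comp h1
    rw [Real.sqrt_zero] at h2
    exact h2
  have hub : Tendsto (fun d : ℕ => δ d + (1 / 2) * Real.sqrt (A d * lamSeq d ^ J)) atTop
      (nhds 0) := by
    simpa using hδ.add (hsq.const_mul (1 / 2 : ℝ))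
  refine tendsto_of_tendsto_of_tendsto_of_le_of_le' tendsto_const_nhds hub
    (Eventually.of_forall (fun d => tv_nonneg _ _)) ?_
  filter_upwards [hG] with d hd
  obtain ⟨hA0, G, h1, h2⟩ := hd
  have e : (K0 + J) * (d + 1) = K0 * (d + 1) + J * (d + 1) := by ring
  rw [e]
  exact tv_le_of_typical (2 ^ d) (K0 * (d + 1)) (d + 1) J (lamSeq d) (δ d) (A d)
    (lamSeq_nonneg d) hA0 (gap_uncond d).1 G h1 h2

open Filter in
/-- END GAME, typical-density form with a polynomial density bound `A * n ^ C`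
(`n = 2 ^ (d + 1)` cards), `K0 + (4 * C + 1) ≤ 1600`. -/
theorem s0222_of_typical_poly (K0 C : ℕ) (hK : K0 + (4 * C + 1) ≤ 1600) (A : ℝ) (hA : 0 ≤ A)
    (δ : ℕ → ℝ) (hδ : Tendsto δ atTop (nhds 0))
    (hG : ∀ᶠ d in atTop, ∃ G : Finset (Equiv.Perm (Fin (2 * 2 ^ d))),
      (∑ g ∈ Gᶜ, law (2 ^ d) (K0 * (d + 1)) g ≤ δ d) ∧
        ∀ g ∈ G, N (2 ^ d) * law (2 ^ d) (K0 * (d + 1)) g ≤ A * ((2 : ℝ) ^ (d + 1)) ^ C) :
    Tendsto (fun d : ℕ => tvFromUniform (2 ^ d) (1600 * (d + 1))) atTop (nhds 0) := by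
  have hA0 : ∀ d : ℕ, (0 : ℝ) ≤ A * ((2 : ℝ) ^ (d + 1)) ^ C := fun d => by positivity
  refine s0222_of_typical K0 (4 * C + 1) hK δ (fun d => A * ((2 : ℝ) ^ (d + 1)) ^ C) hδ
    (Crest.Agent.Helper13.Gap.tendsto_lamSeq_pow_mul_poly C A (Eventually.of_forall hA0)) ?_
  filter_upwards [hG] with d hd
  exact ⟨hA0 d, hd⟩

open Filter in
/-- END GAME, moment form: if for all large `d`
`∑ law * φ (N * law) ≤ B d` after `K0` passes, for one nonnegative nondecreasing `φ`, and thresholds
`A d ≥ 0` satisfy `φ (A d) > 0`, `B d / φ (A d) → 0` and `lamSeq d ^ J * A d → 0`, `K0 + J ≤ 1600`,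
then the statement of S0222 holds.  (Rényi form: `φ x = x ^ ε`; entropy form: `φ = log⁺`.) -/
theorem s0222_of_moment (K0 J : ℕ) (hK : K0 + J ≤ 1600) (φ : ℝ → ℝ)
    (hφ0 : ∀ x, 0 ≤ x → 0 ≤ φ x) (hφ : ∀ x y, 0 ≤ x → x ≤ y → φ x ≤ φ y)
    (A B : ℕ → ℝ)
    (hδ : Tendsto (fun d : ℕ => B d / φ (A d)) atTop (nhds 0))
    (hlim : Tendsto (fun d : ℕ => lamSeq d ^ J * A d) atTop (nhds 0))
    (hM : ∀ᶠ d in atTop, 0 ≤ A d ∧ 0 < φ (A d) ∧
      ∑ g, law (2 ^ d) (K0 * (d + 1)) g * φ (N (2 ^ d) * law (2 ^ d) (K0 * (d + 1)) g) ≤ B d) :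
    Tendsto (fun d : ℕ => tvFromUniform (2 ^ d) (1600 * (d + 1))) atTop (nhds 0) := by
  refine s0222_of_typical K0 J hK (fun d => B d / φ (A d)) A hδ hlim ?_
  filter_upwards [hM] with d hd
  obtain ⟨hA0, hφA, hB⟩ := hd
  exact ⟨hA0, lowDensity (2 ^ d) (K0 * (d + 1)) (A d),
    mass_compl_le_of_moment (2 ^ d) (K0 * (d + 1)) φ (A d) (B d) hφ0 hφ hA0 hφA hB,
    fun g hg => le_of_mem_lowDensity _ _ _ g hg⟩

/-! ### Rényi and entropy forms -/

/-- The positive part of the logarithm. -/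
noncomputable def logPlus (x : ℝ) : ℝ := max (Real.log x) 0

theorem logPlus_nonneg (x : ℝ) : 0 ≤ logPlus x := le_max_right _ _

theorem logPlus_mono (x y : ℝ) (hx : 0 ≤ x) (hxy : x ≤ y) : logPlus x ≤ logPlus y := by
  unfold logPlus
  rcases hx.eq_or_lt with h0 | hpos
  · rw [← h0, Real.log_zero, max_self]
    exact le_max_right _ _
  · exact max_le_max (Real.log_le_log hpos hxy) le_rfl

/-- The `log⁺`-moment of the density is at most the relative entropy plus `1`. -/
theorem sum_law_logPlus_le (m s : ℕ) :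
    ∑ g, law m s g * logPlus (N m * law m s g) ≤
      ∑ g, law m s g * Real.log (N m * law m s g) + 1 := by
  have hN := N_pos m
  have h1 : ∀ g : Equiv.Perm (Fin (2 * m)), law m s g * logPlus (N m * law m s g) ≤
      law m s g * Real.log (N m * law m s g) + 1 / N m := by
    intro g
    have hl := law_nonneg m s g
    unfold logPlus
    rcases le_or_gt 0 (Real.log (N m * law m s g)) with h | h
    · rw [max_eq_left h]
      have : 0 ≤ 1 / N m := by positivity
      linarith
    · rw [max_eq_right h.le, mul_zero]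
      have hx0 : 0 < N m * law m s g := by
        rcases (mul_nonneg hN.le hl).eq_or_lt with h0 | hpos
        · rw [← h0, Real.log_zero] at h
          exact absurd h (lt_irrefl 0)
        · exact hpos
      set x := N m * law m s g with hx
      have h2 : Real.log x⁻¹ ≤ x⁻¹ - 1 := Real.log_le_sub_one_of_pos (inv_pos.mpr hx0)
      rw [Real.log_inv] at h2
      have h3 : x * (-Real.log x) ≤ 1 := by
        have h4 : x * (-Real.log x) ≤ x * (x⁻¹ - 1) := mul_le_mul_of_nonneg_left h2 hx0.le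
        have h5 : x * (x⁻¹ - 1) = 1 - x := by
          rw [mul_sub, mul_inv_cancel₀ hx0.ne', mul_one]
        linarith
      have h6 : law m s g = x / N m := by
        rw [hx]
        field_simp
      rw [h6]
      have h7 : x / N m * Real.log x + 1 / N m = (1 - x * (-Real.log x)) / N m := by ring
      rw [h7]
      exact div_nonneg (by linarith) hN.le
  refine (Finset.sum_le_sum (fun g _ => h1 g)).trans (le_of_eq ?_)
  rw [Finset.sum_add_distrib, Finset.sum_const, nsmul_eq_mul, card_perm]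
  congr 1
  field_simp

open Filter in
/-- END GAME, entropy form: if the relative entropy `∑ law * log (N * law)` of the law after `K0`
passes w.r.t. the uniform law is at most `κ d` for all large `d`, with `κ d / (d + 1) → 0`
(i.e. `o(log n)`), and `K0 + 5 ≤ 1600`, then the statement of S0222 holds. -/
theorem s0222_of_entropy (K0 : ℕ) (hK : K0 + 5 ≤ 1600) (κ : ℕ → ℝ)
    (hκ : Tendsto (fun d : ℕ => κ d / ((d : ℝ) + 1)) atTop (nhds 0))
    (hM : ∀ᶠ d in atTop,
      ∑ g, law (2 ^ d) (K0 * (d + 1)) g *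
        Real.log (N (2 ^ d) * law (2 ^ d) (K0 * (d + 1)) g) ≤ κ d) :
    Tendsto (fun d : ℕ => tvFromUniform (2 ^ d) (1600 * (d + 1))) atTop (nhds 0) := by
  have hlog2 : 0 < Real.log 2 := Real.log_pos (by norm_num)
  have hφA : ∀ d : ℕ, logPlus ((2 : ℝ) ^ (d + 1)) = ((d : ℝ) + 1) * Real.log 2 := by
    intro d
    unfold logPlus
    rw [Real.log_pow]
    push_cast
    exact max_eq_left (by positivity)
  have hA : ∀ d : ℕ, (1 : ℝ) * ((2 : ℝ) ^ (d + 1)) ^ 1 = (2 : ℝ) ^ (d + 1) := fun d => by ring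
  refine s0222_of_moment K0 (4 * 1 + 1) (by omega) logPlus (fun x _ => logPlus_nonneg x)
    logPlus_mono (fun d => (2 : ℝ) ^ (d + 1)) (fun d => κ d + 1) ?_ ?_ ?_
  · have h1 : Tendsto (fun d : ℕ => (1 : ℝ) / ((d : ℝ) + 1)) atTop (nhds 0) :=
      tendsto_one_div_add_atTop_nhds_zero_nat
    have h2 := (hκ.add h1).const_mul (1 / Real.log 2)
    have e : (fun d : ℕ => (κ d + 1) / logPlus ((2 : ℝ) ^ (d + 1))) =
        fun d : ℕ => 1 / Real.log 2 * (κ d / ((d : ℝ) + 1) + 1 / ((d : ℝ) + 1)) := by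
      funext d
      rw [hφA d]
      have : ((d : ℝ) + 1) ≠ 0 := by positivity
      field_simp
    rw [e]
    simpa using h2
  · have h := Crest.Agent.Helper13.Gap.tendsto_lamSeq_pow_mul_poly 1 1
      (Eventually.of_forall (fun d => by positivity))
    simpa [hA] using h
  · filter_upwards [hM] with d hd
    refine ⟨by positivity, ?_, ?_⟩
    · rw [hφA d]
      positivity
    · exact (sum_law_logPlus_le (2 ^ d) (K0 * (d + 1))).trans (by linarith)

open Filter in
/-- END GAME, Rényi form: if for some real `ε > 0` the moment `∑ law * (N * law) ^ ε` after `K0`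
passes is at most `n ^ c` (`n = 2 ^ (d + 1)` cards, `c` real) for all large `d`, and `c < ε * C`,
`K0 + (4 * C + 1) ≤ 1600`, then the statement of S0222 holds. -/
theorem s0222_of_renyi (K0 C : ℕ) (hK : K0 + (4 * C + 1) ≤ 1600) (ε c : ℝ) (hε : 0 < ε)
    (hc : c < ε * C)
    (hM : ∀ᶠ d in atTop,
      ∑ g, law (2 ^ d) (K0 * (d + 1)) g *
        (N (2 ^ d) * law (2 ^ d) (K0 * (d + 1)) g) ^ ε ≤ ((2 : ℝ) ^ (d + 1)) ^ c) :
    Tendsto (fun d : ℕ => tvFromUniform (2 ^ d) (1600 * (d + 1))) atTop (nhds 0) := by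
  have hn0 : ∀ d : ℕ, (0 : ℝ) < (2 : ℝ) ^ (d + 1) := fun d => by positivity
  have hA : ∀ d : ℕ, (1 : ℝ) * ((2 : ℝ) ^ (d + 1)) ^ C = ((2 : ℝ) ^ (d + 1)) ^ C := fun d => by ring
  have hφA : ∀ d : ℕ, (((2 : ℝ) ^ (d + 1)) ^ C) ^ ε = ((2 : ℝ) ^ (d + 1)) ^ (ε * C) := by
    intro d
    rw [← Real.rpow_natCast, ← Real.rpow_mul (hn0 d).le, mul_comm]
  refine s0222_of_moment K0 (4 * C + 1) hK (fun x => x ^ ε)
    (fun x hx => Real.rpow_nonneg hx ε)
    (fun x y hx hxy => Real.rpow_le_rpow hx hxy hε.le)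
    (fun d => ((2 : ℝ) ^ (d + 1)) ^ C) (fun d => ((2 : ℝ) ^ (d + 1)) ^ c) ?_ ?_ ?_
  · have hneg : c - ε * C < 0 := by linarith
    have h1 : Tendsto (fun d : ℕ => ((2 : ℝ) ^ (d + 1))) atTop atTop :=
      (tendsto_pow_atTop_atTop_of_one_lt (by norm_num : (1 : ℝ) < 2)).comp
        (tendsto_add_atTop_nat 1)
    have h2 : Tendsto (fun x : ℝ => x ^ (c - ε * C)) atTop (nhds 0) := by
      have := tendsto_rpow_neg_atTop (y := ε * C - c) (by linarith)
      simpa [neg_sub] using this
    have h3 := h2.comp h1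
    have e : (fun d : ℕ => ((2 : ℝ) ^ (d + 1)) ^ c / (((2 : ℝ) ^ (d + 1)) ^ C) ^ ε) =
        (fun x : ℝ => x ^ (c - ε * C)) ∘ (fun d : ℕ => ((2 : ℝ) ^ (d + 1))) := by
      funext d
      rw [hφA d, Function.comp_apply, Real.rpow_sub (hn0 d)]
    rw [e]
    exact h3
  · have h := Crest.Agent.Helper13.Gap.tendsto_lamSeq_pow_mul_poly C 1
      (Eventually.of_forall (fun d => by positivity))
    simpa [hA] using h
  · filter_upwards [hM] with d hd
    refine ⟨by positivity, ?_, hd⟩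
    exact Real.rpow_pos_of_pos (by positivity) ε

/-- The density in terms of the number of bit tables producing `g`. -/
theorem density_eq_fiberCard (m t : ℕ) (g : Equiv.Perm (Fin (2 * m))) :
    N m * law m t g = ((2 * m).factorial : ℝ) * (fiberCard m t g : ℝ) / (2 : ℝ) ^ (m * t) := by
  unfold law N
  ring

end Crest.Agent.Helper3.Shuffle
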